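import Crest.Agent.N222.C.UCov
import Crest.Agent.N222.C.CovF
import Crest.Agent.N222.C.Simp1
import Crest.Agent.N255.Tp.Basic
import Crest.Agent.N255.Tp.Stm

/-!
# Row 255, block D (helper89): the universal cover of a closed aspherical manifold as a `G`-space
-/

set_option autoImplicit false
open Set Filter Topology

noncomputable section

namespace Crest.Agent.N255.Uc

open Crest.Agent.N255.Tp Crest.Agent.N222.C

/-- a weakly contractible `d`-manifold with a free proper cocompact action -/
structure GM (d : ℕ) (G T : Type) [Group G] [TopologicalSpace T] [MulAction G T] : Prop where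
  t2 : T2Space T
  chart : Nonempty (ChartedSpace (EE d) T)
  cont : ContinuousConstSMul G T
  free : ∀ (g : G) (x : T), g • x = x → g = 1
  prp : ∀ A B : Set T, IsCompact A → IsCompact B → {g : G | ∃ x ∈ A, g • x ∈ B}.Finite
  cocpt : ∃ K : Set T, IsCompact K ∧ ∀ x, ∃ g : G, g • x ∈ K
  pc : PathConnectedSpace T
  wc : WC T
  sc : SecondCountableTopology T
  disj : ∀ x : T, ∃ U ∈ 𝓝 x, ∀ g : G, ((g • ·) '' U ∩ U).Nonempty → g = 1

theorem charted_of_loc {d : ℕ} {T S : Type} [TopologicalSpace T] [TopologicalSpace S]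
    [ChartedSpace (EE d) S] {p : T → S} (hp : IsLocalHomeomorph p) :
    Nonempty (ChartedSpace (EE d) T) := by
  choose e he _ using hp
  let _ : ChartedSpace S T := ⟨range e, e, he, mem_range_self⟩
  exact ⟨ChartedSpace.comp (EE d) S T⟩

theorem gm_cov {d : ℕ} {S : Type} [TopologicalSpace S] [ChartedSpace (EE d) S] [T2Space S]
    [SecondCountableTopology S] [CompactSpace S] (C : Cov S)
    (h : ∀ n : ℕ, 2 ≤ n → ∀ x : S, Subsingleton (HomotopyGroup (Fin n) S x)) : GM d C.Γ C.T := by
  have : LocallyCompactSpace S := ChartedSpace.locallyCompactSpace (EE d) S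
  have := C.sc
  exact ⟨C.t2, charted_of_loc C.loc, C.ccs, C.free, C.prp, C.exists_compact, inferInstance,
    C.wc h, C.sc2, C.qc.disjoint⟩

theorem quot_transport {T S Γ G : Type} [TopologicalSpace T] [TopologicalSpace S] [Group Γ] [Group G]
    [MulAction Γ T] {p : T → S} (hq : IsQuotientCoveringMap p Γ) (φ : Γ ≃* G) :
    ∃ _ : MulAction G T, IsQuotientCoveringMap p G := by
  let i : MulAction G T := MulAction.compHom T φ.symm.toMonoidHom
  have hs : ∀ (g : G) (y : T), g • y = φ.symm g • y := fun _ _ => rfl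
  refine ⟨i, { toIsQuotientMap := hq.toIsQuotientMap
               continuous_const_smul := fun g => hq.continuous_const_smul (φ.symm g)
               apply_eq_iff_mem_orbit := fun {e₁ e₂} => hq.apply_eq_iff_mem_orbit.trans ⟨?_, ?_⟩
               disjoint := fun y => ?_ }⟩
  · rintro ⟨g, rfl⟩
    exact ⟨φ g, by show φ g • e₂ = _; rw [hs, φ.symm_apply_apply]⟩
  · rintro ⟨g, rfl⟩
    exact ⟨φ.symm g, rfl⟩
  · obtain ⟨U, hU, h⟩ := hq.disjoint y
    exact ⟨U, hU, fun g hg => φ.symm.injective (by rw [map_one]; exact h _ hg)⟩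

open UC in
/-- universal covering with prescribed group -/
theorem exists_cov {d : ℕ} {S : Type} [TopologicalSpace S] [ChartedSpace (EE d) S]
    [SecondCountableTopology S] [CompactSpace S] [ConnectedSpace S] {G : Type} [Group G] (x0 : S)
    (φ : FundamentalGroup S x0 ≃* G) :
    ∃ (T : Type) (_ : TopologicalSpace T) (_ : MulAction G T) (p : T → S),
      IsQuotientCoveringMap p G ∧ SimplyConnectedSpace T ∧ Countable G := by
  have := ChartedSpace.locallyPathConnectedSpace (EE d) S
  have : PathConnectedSpace S := PathConnectedSpace.of_locallyPathConnectedSpace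
  choose e he hc using fun x : S => exists_convex (chartAt (EE d) x) (mem_chart_source _ x)
  obtain ⟨t, -, ht⟩ := isCompact_univ.elim_nhds_subcover (fun x => (e x).source)
    fun x _ => (e x).open_source.mem_nhds (he x)
  let A : Cv S :=
    { ι := t
      U := fun i => (e i).source
      op := fun i => (e i).open_source
      cover := fun x => by
        obtain ⟨i, hi, hx⟩ := mem_iUnion₂.1 (ht (mem_univ x))
        exact ⟨⟨i, hi⟩, hx⟩
      joined := fun i x hx y hy => joined (hc i) hx hy
      uniq := fun i _ _ p q => uniq (hc i) p q }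
  have : Countable A.ι := inferInstanceAs (Countable t)
  obtain ⟨i, hq⟩ := @quot_transport _ _ _ _ _ _ _ _ Cv.deck _
    (Cv.isQuotientCoveringMap (A := A) (x0 := x0)) φ
  have hcnt := A.countable x0
  exact ⟨A.cov x0, inferInstance, i, Cv.pr, hq, Cv.simplyConnected, φ.symm.injective.countable⟩

/-- the manifold clause of S0393 gives a `G`-manifold -/
theorem gm_of {G : Type} [Group G]
    (h : ∃ (M : Type) (_ : TopologicalSpace M) (_ : ChartedSpace (EuclideanSpace ℝ (Fin 4)) M),
      T2Space M ∧ SecondCountableTopology M ∧ CompactSpace M ∧ ConnectedSpace M ∧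
      (∀ n : ℕ, 2 ≤ n → ∀ x : M, Subsingleton (HomotopyGroup (Fin n) M x)) ∧
      ∃ x : M, Nonempty (FundamentalGroup M x ≃* G)) :
    ∃ (T : Type) (_ : TopologicalSpace T) (_ : MulAction G T), GM 4 G T := by
  obtain ⟨M, _, _, h1, h2, h3, h4, h5, x, ⟨φ⟩⟩ := h
  obtain ⟨T, i1, i2, p, q1, q2, q3⟩ := exists_cov (d := 4) x φ
  exact ⟨T, i1, i2, gm_cov (d := 4) (@Cov.mk M _ T G _ _ i2 p q1 q2 q3) h5⟩

section coarse

variable {G T : Type} [Group G] [TopologicalSpace T] [MulAction G T] {d : ℕ}

/-- translation as a continuous map -/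
def tr [ContinuousConstSMul G T] (g : G) : C(T, T) := ⟨fun x => g • x, continuous_const_smul g⟩

theorem tr_apply [ContinuousConstSMul G T] (g : G) (x : T) : tr g x = g • x := rfl

theorem tr_comp [ContinuousConstSMul G T] (g h : G) :
    (tr g : C(T, T)).comp (tr h) = tr (g * h) := by
  ext x; exact (mul_smul g h x).symm

theorem tr_one [ContinuousConstSMul G T] : (tr (1 : G) : C(T, T)) = ContinuousMap.id T := by
  ext x; exact one_smul G x

/-- the union of the translates `g • K`, `g ∈ S` -/
def sat (S : Set G) (K : Set T) : Set T := {x | ∃ g ∈ S, g⁻¹ • x ∈ K}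

omit [TopologicalSpace T] in
theorem sat_eq (S : Set G) (K : Set T) : sat S K = ⋃ g ∈ S, (g • ·) '' K := by
  ext x
  simp only [sat, mem_ofPred_eq, mem_iUnion, mem_image, exists_prop]
  exact ⟨fun ⟨g, hg, h⟩ => ⟨g, hg, _, h, smul_inv_smul g x⟩,
    fun ⟨g, hg, y, hy, e⟩ => ⟨g, hg, by rw [← e, inv_smul_smul]; exact hy⟩⟩

omit [TopologicalSpace T] in
theorem sat_mono {S S' : Set G} {K K' : Set T} (h : S ⊆ S') (h' : K ⊆ K') : sat S K ⊆ sat S' K' :=
  fun _ ⟨g, hg, hx⟩ => ⟨g, h hg, h' hx⟩

omit [TopologicalSpace T] in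
theorem smul_mem_sat {S : Set G} {K : Set T} {g : G} {x : T} (hg : g ∈ S) (hx : x ∈ K) :
    g • x ∈ sat S K := ⟨g, hg, by rwa [inv_smul_smul]⟩

theorem isCompact_sat [ContinuousConstSMul G T] {S : Set G} (hS : S.Finite) {K : Set T}
    (hK : IsCompact K) : IsCompact (sat S K) := by
  rw [sat_eq]
  exact hS.isCompact_biUnion fun g _ => hK.image (continuous_const_smul g)

theorem isOpen_sat [ContinuousConstSMul G T] (S : Set G) {U : Set T} (hU : IsOpen U) :
    IsOpen (sat S U) := by
  rw [sat_eq]
  exact isOpen_biUnion fun g _ => isOpenMap_smul g _ hU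

variable {k : Type} [CommRing k] {n : ℕ}

theorem push_tr_tr [ContinuousConstSMul G T] (g h : G) (c : Ch k n T) :
    push k (tr g) (push k (tr h) c) = push k (tr (g * h)) c := by
  rw [push_push, tr_comp]

theorem push_tr_one [ContinuousConstSMul G T] (c : Ch k n T) : push k (tr (1 : G)) c = c := by
  rw [tr_one, push_id]

theorem push_rcyc {X Y : Type} [TopologicalSpace X] [TopologicalSpace Y] (f : C(X, Y)) :
    ∀ {n : ℕ} {c : Ch k n X}, c ∈ rcyc k X n → push k f c ∈ rcyc k Y n
  | 0, c, h => by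
    show aug k (push k f c) = 0
    rw [aug_push]; exact h
  | _ + 1, c, h => by
    show bd k (push k f c) = 0
    rw [bd_push, show bd k c = 0 from h, map_zero]

/-- fillings are transported by the action -/
theorem fill_tr [ContinuousConstSMul G T] {K L : Set T}
    (h : (On K).ch k n ⊓ rcyc k T n ≤ (On L).B k n) (g : G) :
    (On (sat {g} K)).ch k n ⊓ rcyc k T n ≤ (On (sat {g} L)).B k n := by
  intro c hc
  have h1 : push k (tr g⁻¹) c ∈ (On L).B k n := h ⟨push_mem (by
    rintro x ⟨_, rfl, hx⟩; exact hx) hc.1, push_rcyc _ hc.2⟩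
  have h2 := push_mem_B (f := tr g) (V := sat {g} L) (fun x hx => smul_mem_sat rfl hx) h1
  rwa [push_tr_tr, mul_inv_cancel, push_tr_one] at h2

namespace GM

variable (h : GM d G T)
include h

theorem lc : LocallyCompactSpace T := by
  obtain ⟨_⟩ := h.chart
  exact ChartedSpace.locallyCompactSpace (EE d) T

theorem wc' (n : ℕ) (_ : 1 ≤ n) (x : T) : Subsingleton (HomotopyGroup (Fin n) T x) := h.wc n x

theorem acy (hW : WcS) (k : Type) [CommRing k] : Acy k (univ : Set T) univ := by
  have := h.pc
  exact hW k T h.wc'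

/-- only finitely many translates of a compact set meet a compact set -/
theorem fin_meet {A B : Set T} (hA : IsCompact A) (hB : IsCompact B) :
    {g : G | ∃ x ∈ A, g⁻¹ • x ∈ B}.Finite := by
  have := (h.prp A B hA hB).preimage (f := fun g : G => g⁻¹) inv_injective.injOn
  exact this

/-- a compact fundamental set whose interior already covers -/
theorem exists_fd : ∃ K : Set T, IsCompact K ∧ ∀ x, ∃ g : G, g⁻¹ • x ∈ interior K := by
  have := h.lc
  obtain ⟨K, hK, hc⟩ := h.cocpt
  obtain ⟨L, hL, hKL⟩ := exists_compact_superset hK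
  refine ⟨L, hL, fun x => ?_⟩
  obtain ⟨g, hg⟩ := hc x
  exact ⟨g⁻¹, by rw [inv_inv]; exact hKL hg⟩


/-- equivariantly uniform fillings -/
theorem unif (hW : WcS) (hU : UnifS) (k : Type) [Field k] {K : Set T} (hK : IsCompact K) (n : ℕ) :
    ∃ L : Set T, IsCompact L ∧ K ⊆ L ∧ ∀ g : G,
      (On (sat {g} K)).ch k n ⊓ rcyc k T n ≤ (On (sat {g} L)).B k n := by
  obtain ⟨_⟩ := h.chart
  have := h.t2
  have := h.cont
  obtain ⟨L, hL, h1⟩ := hU k d T (h.acy hW k) K hK n
  exact ⟨K ∪ L, hK.union hL, subset_union_left, fun g =>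
    fill_tr (h1.trans (B_mono subset_union_right)) g⟩

end GM

end coarse

end Crest.Agent.N255.Uc

end
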